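import Vale.Agent.P269HS.Spec

/-!
# P269, row H5: the dual vector fields (row CTR)
-/

open scoped Manifold ContDiff Topology Matrix ComplexOrder
open Filter
open Vale.Agent.P272.K Vale.Agent.P272.K.C2 Vale.Agent.P299.IX Vale.Agent.P299.IX.Fock
  Vale.Agent.P281Z.Hg
open Vale.Agent.P269HK Vale.Agent.P269HS

noncomputable section

namespace Vale.Agent.P269HC

variable {n N : ℕ}

/-- the left inverse of an injective matrix -/
def pinv (T : Matrix (Fin N) (Fin n) ℂ) : Matrix (Fin n) (Fin N) ℂ := (Tᴴ * T)⁻¹ * Tᴴ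

theorem det_ne {T : Matrix (Fin N) (Fin n) ℂ} (h : ∀ t, T *ᵥ t = 0 → t = 0) : (Tᴴ * T).det ≠ 0 :=
  (Matrix.PosDef.conjTranspose_mul_self T
    ((injective_iff_map_eq_zero T.mulVecLin).2 h)).det_pos.ne'

theorem pinv_mul {T : Matrix (Fin N) (Fin n) ℂ} (h : (Tᴴ * T).det ≠ 0) : pinv T * T = 1 := by
  rw [pinv, Matrix.mul_assoc, Matrix.nonsing_inv_mul _ (Ne.isUnit h)]

theorem pinv_chg {T : Matrix (Fin N) (Fin n) ℂ} {B : Matrix (Fin n) (Fin n) ℂ}
    (h : ((T * B)ᴴ * (T * B)).det ≠ 0) : pinv T = B * pinv (T * B) := by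
  have e : (T * B)ᴴ * (T * B) = Bᴴ * (Tᴴ * T) * B := by
    simp only [Matrix.conjTranspose_mul, Matrix.mul_assoc]
  have hB : B.det ≠ 0 := fun h0 => h (by rw [e, Matrix.det_mul, h0, mul_zero])
  have hB' : Bᴴ.det ≠ 0 := by rw [Matrix.det_conjTranspose]; exact star_ne_zero.2 hB
  rw [pinv, pinv, e, Matrix.mul_inv_rev, Matrix.mul_inv_rev, Matrix.conjTranspose_mul]
  simp only [Matrix.mul_assoc]
  rw [Matrix.mul_nonsing_inv_cancel_left _ _ (Ne.isUnit hB),
    Matrix.nonsing_inv_mul_cancel_left _ _ (Ne.isUnit hB')]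

theorem ctr_lam (J : Matrix (Fin (n + n)) (Fin (n + n)) ℂ) (hJ : ∀ j l, J (hl j) (ah l) = 0)
    (v : Fin n → ℂ) : ctr v * lam J = lam J * ctr fun l => ∑ j, v j * J (hl j) (hl l) := by
  simp only [ctr, Finset.sum_mul, Matrix.smul_mul, iot_lam, ← Matrix.mul_smul, ← Finset.mul_sum]
  congr 1
  simp only [Fin.sum_univ_add, Finset.smul_sum, Finset.sum_smul, smul_add, smul_smul]
  rw [Finset.sum_comm]
  refine Finset.sum_congr rfl fun j _ => ?_
  have : ∀ l, J (hl j) (Fin.natAdd n l) = 0 := hJ j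
  simp only [this, mul_zero, zero_smul, Finset.sum_const_zero, add_zero]
  rfl

/-- **Row CTR.** -/
theorem ctr_row (tcv : TCV) : CTR := by
  intro n N Y _ _ _ H hinj
  obtain ⟨h1, -, h3⟩ := tcv n N Y H
  let T : Chart n Y → Y → Matrix (Fin N) (Fin n) ℂ := fun e y => Matrix.of (Θ H e y)
  have hd (e y) (he : At e y) : ((T e y)ᴴ * T e y).det ≠ 0 := det_ne fun t ht =>
    hinj e y he t fun i => by
      rw [← Pi.zero_apply (M := fun _ : Fin N => ℂ) i, ← ht]
      exact Finset.sum_congr rfl fun j _ => mul_comm _ _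
  refine ⟨fun e y i j => pinv (T e y) j i, fun e y he j j' => ?_, fun e e' y i he he' => ?_,
    fun e y k i j he hk => ?_⟩
  · have := congrFun (congrFun (pinv_mul (hd e y he)) j') j
    rw [Matrix.mul_apply, Matrix.one_apply] at this
    simp only [eq_comm (a := j)]
    rw [← this]
    exact Finset.sum_congr rfl fun i _ => mul_comm _ _
  · rw [ctr_lam _ fun j l => by rw [G1H.jt_eq k1b' he he', F1bH.blk_ha]]
    let B : Matrix (Fin n) (Fin n) ℂ := Matrix.of fun l j => jt e e' y (hl j) (hl l)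
    have e1 : T e y = T e' y * B := by
      ext i j
      exact (h1 e e' y i j he he').trans (Finset.sum_congr rfl fun l _ => mul_comm _ _)
    have e2 := pinv_chg (T := T e' y) (B := B) (e1 ▸ hd e y he)
    rw [← e1] at e2
    congr 2
    funext l
    refine .symm ((congrFun (congrFun e2 l) i).trans ?_)
    rw [Matrix.mul_apply]
    exact Finset.sum_congr rfl fun j _ => mul_comm _ _
  · let S : Y → Matrix (Fin N) (Fin n) ℂ := fun x => Matrix.of fun i j => Θ H e x i j / H.x x k
    have e1 (x) (hx : H.x x k ≠ 0) : T e x = S x * (H.x x k • (1 : Matrix (Fin n) (Fin n) ℂ)) := by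
      ext i j
      simp [S, T, mul_div_cancel₀ _ hx]
    have e2 (x) (hx : H.x x k ≠ 0) (ha : At e x) : pinv (S x) = H.x x k • pinv (T e x) := by
      rw [pinv_chg (T := S x) (B := H.x x k • (1 : Matrix (Fin n) (Fin n) ℂ)) (e1 x hx ▸ hd e x ha), ← e1 x hx, Matrix.smul_mul,
        Matrix.one_mul]
    have hS : MC ∞ (fun z => S (e.symm z)) (e y) := fun i j => h3 e y k i j he hk
    have h0 : ((S (e.symm (e y)))ᴴ * S (e.symm (e y))).det ≠ 0 := by
      rw [e.left_inv he.2]
      refine det_ne fun t ht => hinj e y he t fun i => ?_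
      have := congrFun ht i
      simp only [S, Matrix.mulVec, dotProduct, Matrix.of_apply, div_mul_eq_mul_div,
        ← Finset.sum_div, Pi.zero_apply, div_eq_zero_iff, hk, or_false] at this
      rw [← this]
      exact Finset.sum_congr rfl fun j _ => mul_comm _ _
    refine ((((hS.conjTranspose.mul hS).inv h0).mul hS.conjTranspose) j i).congr_of_eventuallyEq ?_
    filter_upwards [ev_symm he (H.near hk), e.open_target.mem_nhds (e.map_source he.2)] with z hz hz'
    exact (congrFun (congrFun (e2 _ hz ⟨he.1, e.map_target hz'⟩) j) i).symm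

end Vale.Agent.P269HC
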